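import Vale.Agent.P269L.La.Len
import Vale.Agent.P269L.L.Defs

/-!
# P269L: the length of a hyperplane section along a smooth component is the rank of a projection
-/

open Filter Topology Set Function
open Vale.Agent.P298.H941 (O)
open Vale.Agent.P277Z.Oka Vale.Agent.P269L.L Vale.Agent.P287Q

noncomputable section

namespace Vale.Agent.P269L.La

variable {E F : Type} [NormedAddCommGroup E] [NormedSpace ℂ E] [NormedAddCommGroup F]
  [NormedSpace ℂ F]

/-- division by the last coordinate -/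
theorem hadamard [FiniteDimensional ℂ F] {u : F} {r : F × ℂ → ℂ} (hr : AnalyticAt ℂ r (u, 0))
    (h : ∀ᶠ v in 𝓝 u, r (v, 0) = 0) :
    ∃ g, AnalyticAt ℂ g (u, (0 : ℂ)) ∧ ∀ᶠ z in 𝓝 (u, (0 : ℂ)), r z = z.2 * g z := by
  have hs : AnalyticAt ℂ (Prod.swap : ℂ × F → F × ℂ) (0, u) := analyticAt_snd.prod analyticAt_fst
  have hs' : AnalyticAt ℂ (Prod.swap : F × ℂ → ℂ × F) (u, 0) := analyticAt_snd.prod analyticAt_fst
  obtain ⟨v, c, hv, hc, e⟩ := P298.H941.weierstrass_division (F := Prod.fst) (p0 := u) (b := 1)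
    analyticAt_fst (u := fun _ => 1) analyticAt_const one_ne_zero (.of_forall fun z => by simp)
    (hr.comp_of_eq hs rfl)
  have h1 : ∀ᶠ y in 𝓝 u, c 0 y = 0 := by
    filter_upwards [h, (show ContinuousAt (fun y : F => ((0 : ℂ), y)) u by fun_prop).eventually e]
      with y h1 h2
    simpa [h1] using h2.symm
  refine ⟨fun z => v z.swap, hv.comp_of_eq hs' rfl, ?_⟩
  filter_upwards [hs'.continuousAt.eventually e, continuousAt_fst.eventually h1] with z h2 h3
  simpa [h3, mul_comm] using h2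

theorem ana_inl (u : F) : AnalyticAt ℂ (fun v : F => (v, (0 : ℂ))) u :=
  analyticAt_id.prod analyticAt_const

theorem pl_eq_zero {π : E → F} {x : E} (h : AnalyticAt ℂ π x) {r : F → ℂ}
    (hr : AnalyticAt ℂ r (π x)) : pl h (gm (π x) r) = 0 ↔ ∀ᶠ z in 𝓝 x, r (π z) = 0 := by
  rw [pl_gm h hr, gm_eq_zero (f := fun z => r (π z)) (hr.comp h)]

theorem dvd_iff [FiniteDimensional ℂ F] (u : F) (a : O (F × ℂ)) :
    gm (u, (0 : ℂ)) Prod.snd ∣ a ↔ pl (ana_inl u) a = 0 := by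
  obtain ⟨r, hr, rfl⟩ := gm_surj (u, (0 : ℂ)) a
  refine ⟨fun ⟨c, e⟩ => ?_, fun h => ?_⟩
  · rw [e, map_mul, pl_gm (ana_inl u) analyticAt_snd, gm_zero, zero_mul]
  · obtain ⟨g, hg, e⟩ := hadamard hr ((pl_eq_zero (ana_inl u) hr).1 h)
    exact ⟨gm (u, 0) g, by rw [← gm_mul analyticAt_snd hg]; exact gm_congr hr e⟩

theorem prime_snd [FiniteDimensional ℂ F] (u : F) : Prime (gm (u, (0 : ℂ)) Prod.snd) := by
  refine ⟨fun h => ?_, fun h => ?_, fun a b h => ?_⟩
  · rw [gm_eq_zero analyticAt_snd] at h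
    have h1 : ∀ᶠ c in 𝓝 (0 : ℂ), c = 0 :=
      (show ContinuousAt (fun c : ℂ => (u, c)) 0 by fun_prop).eventually h
    exact (infinite_of_mem_nhds (0 : ℂ) h1) (finite_singleton 0)
  · exact (isUnit_gm analyticAt_snd).1 h rfl
  · simpa only [dvd_iff, map_mul, mul_eq_zero] using h

/-- **Length = rank**, for germs. -/
theorem length_eq_rank [FiniteDimensional ℂ E] [FiniteDimensional ℂ F] {B : Set E} {x : E}
    {w : E → F} {ε : E → ℂ} (hB : H3.An B x) (hw : AnalyticAt ℂ w x) (hε : AnalyticAt ℂ ε x)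
    (h0 : ε x = 0) (hd : ∀ᶠ z in 𝓝 x, z ∈ B → z ∈ closure (B \ {z | ε z = 0})) {s : F → E}
    (hs : AnalyticAt ℂ s (w x)) (hsx : s (w x) = x)
    (h1 : ∀ᶠ u in 𝓝 (w x), s u ∈ B ∧ ε (s u) = 0 ∧ w (s u) = u)
    (h2 : ∀ᶠ z in 𝓝 x, z ∈ B → ε z = 0 → z = s (w z)) {Q : Type*} [CommRing Q] (ρ : O E →+* Q)
    (hρ : Surjective ρ) (hk : RingHom.ker ρ = vi x B ⊔ Ideal.span {gm x ε}) (q : PrimeSpectrum Q)
    (hq : IsMin q) (hf : (pq B (hw.prod hε)).Finite) :
    letI := (pq B (hw.prod hε)).toAlgebra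
    Module.length (Localization.AtPrime q.asIdeal) (Localization.AtPrime q.asIdeal) =
      Module.finrank (O (F × ℂ)) (O E ⧸ vi x B) := by
  let _ := (pq B (hw.prod hε)).toAlgebra
  have : Module.Finite (O (F × ℂ)) (O E ⧸ vi x B) := hf
  have : IsNoetherianRing (O (F × ℂ)) := noe (F × ℂ)
  have hm : ∀ r, AnalyticAt ℂ r (w x, (0 : ℂ)) → algebraMap (O (F × ℂ)) (O E ⧸ vi x B)
      (gm (w x, 0) r) = Ideal.Quotient.mk _ (gm x fun z => r (w z, ε z)) := fun r hr => by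
    rw [← h0] at hr ⊢
    exact congrArg (Ideal.Quotient.mk _) (pl_gm (hw.prod hε) hr)
  have ht := hm Prod.snd analyticAt_snd
  have hts : Tendsto s (𝓝 (w x)) (𝓝 x) := by simpa only [hsx] using hs.continuousAt.tendsto
  let P : Ideal (O E) := RingHom.ker (pl hs)
  have hP : ∀ f, AnalyticAt ℂ f x → (gm x f ∈ P ↔ ∀ᶠ u in 𝓝 (w x), f (s u) = 0) := fun f hf => by
    have h3 := pl_eq_zero hs (hsx.symm ▸ hf)
    rwa [hsx] at h3
  have hPp : P.IsPrime := RingHom.ker_isPrime _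
  have hle : RingHom.ker ρ ≤ P := by
    rw [hk]
    refine sup_le (fun a ha => ?_) ((Ideal.span_singleton_le_iff_mem _).2
      ((hP ε hε).2 (h1.mono fun u h => h.2.1)))
    obtain ⟨f, hf, rfl⟩ := gm_surj x a
    rw [hP f hf]
    filter_upwards [hts.eventually ((mem_vi hf).1 ha), h1] with u h3 h4 using h3 h4.1
  have hnil : ∀ a ∈ P, IsNilpotent (ρ a) := by
    intro a ha
    obtain ⟨f, hf, rfl⟩ := gm_surj x a
    obtain ⟨k, h, hh, e⟩ := hB
    have hg : ∀ o : Option (Fin k), AnalyticAt ℂ (o.elim ε fun i z => h z i) x := by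
      rintro (_ | i)
      exacts [hε, analyticAt_pi_iff.1 hh i]
    obtain ⟨n, hn⟩ := nul_all E _ x _ hg f hf (by
      filter_upwards [e, h2, hw.continuousAt.eventually ((hP f hf).1 ha)] with z h3 h4 h5 hz
      rw [h4 (h3.2 (funext fun i => hz (some i))) (hz none), h5])
    refine ⟨n, ?_⟩
    rw [← map_pow, ← gm_pow hf, ← RingHom.mem_ker, hk]
    refine (show idl x _ ≤ _ from Ideal.span_le.2 ?_) ((in_iff hg (hf.fun_pow n)).1 hn)
    rintro _ ⟨_ | i, rfl⟩
    · exact Ideal.mem_sup_right (Ideal.mem_span_singleton_self _)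
    · exact Ideal.mem_sup_left ((mem_vi (hg (some i))).2 (e.mono fun z h3 hz =>
        congrFun (h3.1 hz) i))
  have hq0 : P.map ρ ≤ nilradical Q := Ideal.map_le_iff_le_comap.2 hnil
  have hq1 : q.asIdeal ≤ P.map ρ := hq (b := ⟨_, Ideal.map_isPrime_of_surjective hρ hle⟩)
    (hq0.trans (nilradical_le_prime q.asIdeal))
  have hmem : ∀ a, ρ a ∈ q.asIdeal ↔ a ∈ P := fun a =>
    ⟨fun h => by
      have h3 : a ∈ (P.map ρ).comap ρ := hq1 h
      rw [Ideal.comap_map_of_surjective ρ hρ] at h3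
      exact sup_le le_rfl hle h3,
    fun h => nilradical_le_prime q.asIdeal (hnil a h)⟩
  let π : O E ⧸ vi x B →+* Q := Ideal.Quotient.lift _ ρ fun a ha =>
    (RingHom.mem_ker).1 (hk ▸ Ideal.mem_sup_left ha)
  refine length_eq_finrank (prime_snd (w x)) (fun d e => ?_) π
    (Ideal.Quotient.lift_surjective_of_surjective _ _ hρ) ?_ q.asIdeal (hq1.trans hq0)
    (fun d => ?_) fun a ha => ?_
  · obtain ⟨d, rfl⟩ := Ideal.Quotient.mk_surjective d
    obtain ⟨f, hf, rfl⟩ := gm_surj x d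
    rw [ht, ← map_mul, ← gm_mul hε hf, Ideal.Quotient.eq_zero_iff_mem, mem_vi (hε.fun_mul hf)] at e
    rw [Ideal.Quotient.eq_zero_iff_mem, mem_vi hf]
    filter_upwards [hd, e.eventually, hf.eventually_continuousAt] with z h3 h4 h5 hz
    refine tendsto_nhds_unique_of_frequently_eq h5.tendsto tendsto_const_nhds ?_
    exact ((mem_closure_iff_frequently.1 (h3 hz)).and_eventually h4).mono fun y hy =>
      (mul_eq_zero.1 (hy.2 hy.1.1)).resolve_left hy.1.2
  · rw [show RingHom.ker π = _ from Ideal.ker_quotient_lift _ _, hk, Ideal.map_sup, Ideal.map_quotient_self, bot_sup_eq, ht,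
      Ideal.map_span, image_singleton]
  · obtain ⟨d, rfl⟩ := Ideal.Quotient.mk_surjective d
    obtain ⟨f, hf, rfl⟩ := gm_surj x d
    have h3 : AnalyticAt ℂ (fun u => f (s u)) (w x) := hf.comp_of_eq hs hsx
    refine ⟨gm (w x, 0) fun p => f (s p.1), ?_⟩
    have h4 : AnalyticAt ℂ (fun z => f (s (w z))) x := h3.comp hw
    rw [hm (fun p => f (s p.1)) (h3.comp_of_eq analyticAt_fst rfl), ← map_sub, ← map_sub,
      ← gm_sub hf h4]
    refine (hmem _).2 ((hP _ (hf.fun_sub h4)).2 (h1.mono fun u h => ?_))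
    simp [h.2.2]
  · obtain ⟨r, hr, rfl⟩ := gm_surj (w x, (0 : ℂ)) a
    have h3 : AnalyticAt ℂ (fun z => r (w z, ε z)) x := hr.comp_of_eq (hw.prod hε) (by rw [h0])
    rw [hm r hr] at ha
    rw [dvd_iff, pl_eq_zero (ana_inl _) hr]
    filter_upwards [(hP _ h3).1 ((hmem _).1 ha), h1] with u h4 h5
    rwa [h5.2.1, h5.2.2] at h4

end Vale.Agent.P269L.La
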