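import Vale.Agent.P269L.La.Len

/-!
# P269L: the number of points of a general fibre of a finite algebra is the rank
-/

open Module TensorProduct MvPolynomial

namespace Vale.Agent.P269L.La

section field

variable {k : Type*} [Field k] [IsAlgClosed k]

/-- maximal ideals are kernels of characters -/
theorem exists_char {F : Type*} [CommRing F] [Algebra k F] [Module.Finite k F] (m : Ideal F)
    [hm : m.IsMaximal] : ∃ ψ : F →ₐ[k] k, ∀ a, ψ a = 0 ↔ a ∈ m := by
  have h := IsAlgClosed.algebraMap_bijective_of_isIntegral (k := k) (K := F ⧸ m)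
  let e := AlgEquiv.ofBijective (Algebra.ofId k (F ⧸ m)) h
  refine ⟨(e.symm : F ⧸ m →ₐ[k] k).comp (Ideal.Quotient.mkₐ k m), fun a => ?_⟩
  simp [Ideal.Quotient.eq_zero_iff_mem]

/-- a finite algebra without point derivations has as many points as its dimension -/
theorem card_eq_finrank {F : Type*} [CommRing F] [Algebra k F] [Module.Finite k F]
    (h : ∀ (ψ : F →ₐ[k] k) (d : F →ₗ[k] k), (∀ a b, d (a * b) = ψ a * d b + ψ b * d a) → d = 0) :
    Nat.card (F →ₐ[k] k) = finrank k F := by
  have hN : IsNoetherianRing F := isNoetherian_of_tower k inferInstance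
  refine le_antisymm (card_algHom_le_finrank k F k) ?_
  let _ := Fintype.ofFinite (F →ₐ[k] k)
  let T : F →ₗ[k] (F →ₐ[k] k) → k := LinearMap.pi fun ψ => ψ.toLinearMap
  suffices hT : Function.Injective T by
    simpa using LinearMap.finrank_le_finrank_of_injective hT
  rw [injective_iff_map_eq_zero]
  intro a ha
  by_contra h0
  obtain ⟨m, hm, hle⟩ := Ideal.exists_le_maximal (Ideal.torsionOf F F a)
    (fun e => h0 (by simpa using (Ideal.mem_torsionOf_iff a (1 : F)).1 (e ▸ trivial)))
  obtain ⟨ψ, hψ⟩ := exists_char (k := k) m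
  have h1 : m ≤ m • m := fun x hx => by
    by_contra hx'
    obtain ⟨f, hf, hf'⟩ := Submodule.exists_le_ker_of_notMem (p := (m • m).restrictScalars k) hx'
    let d : F →ₗ[k] k := f - (f 1) • ψ.toLinearMap
    have hd : ∀ y, d y = f (y - algebraMap k F (ψ y)) := fun y => by
      rw [map_sub, Algebra.algebraMap_eq_smul_one, map_smul]
      simp [d, mul_comm]
    have hm' : ∀ y, y - algebraMap k F (ψ y) ∈ m := fun y => (hψ _).1 (by simp)
    have := h ψ d fun u v => by
      have h2 : f ((u - algebraMap k F (ψ u)) * (v - algebraMap k F (ψ v))) = 0 :=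
        hf' (show _ ∈ m • m from Ideal.mul_mem_mul (hm' u) (hm' v))
      rw [hd, hd, hd, ← smul_eq_mul (ψ u), ← smul_eq_mul (ψ v), ← map_smul, ← map_smul, ← map_add,
        ← sub_eq_zero, ← map_sub, ← h2]
      congr 1
      simp only [Algebra.smul_def, map_mul]
      ring
    have h3 := hd x
    rw [this, (hψ x).2 hx, map_zero, sub_zero] at h3
    exact hf h3.symm
  obtain ⟨r, hr, hr'⟩ := Submodule.exists_mem_and_smul_eq_self_of_fg_of_le_smul m m
    (IsNoetherian.noetherian m) h1
  have h2 : 1 - r ∈ m := hle ((Ideal.mem_torsionOf_iff a _).2 (by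
    rw [sub_smul, one_smul, hr' a ((hψ a).1 (congrFun ha ψ)), sub_self]))
  exact hm.ne_top ((Ideal.eq_top_iff_one _).2 (by simpa using m.add_mem h2 hr))

omit [IsAlgClosed k] in
theorem der_eq {σ : Type*} [Fintype σ] (x : σ → k) (d : MvPolynomial σ k →ₗ[k] k)
    (h : ∀ a b, d (a * b) = eval x a * d b + eval x b * d a) (p : MvPolynomial σ k) :
    d p = ∑ i, eval x (pderiv i p) * d (X i) := by
  classical
  have h1 : d 1 = 0 := by simpa using h 1 1
  induction p using MvPolynomial.induction_on with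
  | C a => simp [C_eq_smul_one, h1]
  | add p q hp hq => simp [hp, hq, add_mul, Finset.sum_add_distrib]
  | mul_X p i hp =>
    rw [h, hp]
    simp [pderiv_X, Pi.single_apply, apply_ite, add_mul, Finset.sum_add_distrib, Finset.mul_sum,
      mul_assoc]

/-- the number of solutions of a finite system with invertible Jacobian at all solutions -/
theorem ncard_eq_finrank {σ ι : Type*} [Fintype σ] (P : ι → MvPolynomial σ k)
    [Module.Finite k (MvPolynomial σ k ⧸ Ideal.span (Set.range P))]
    (h : ∀ x : σ → k, (∀ j, eval x (P j) = 0) →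
      ∀ v : σ → k, (∀ j, ∑ i, eval x (pderiv i (P j)) * v i = 0) → v = 0) :
    {x : σ → k | ∀ j, eval x (P j) = 0}.Finite ∧ {x : σ → k | ∀ j, eval x (P j) = 0}.ncard =
      finrank k (MvPolynomial σ k ⧸ Ideal.span (Set.range P)) := by
  set J := Ideal.span (Set.range P) with hJ
  have hP : ∀ j, Ideal.Quotient.mk J (P j) = 0 := fun j =>
    Ideal.Quotient.eq_zero_iff_mem.2 (Ideal.subset_span ⟨j, rfl⟩)
  let pt : (MvPolynomial σ k ⧸ J →ₐ[k] k) → σ → k := fun ψ i => ψ (Ideal.Quotient.mk J (X i))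
  have hpt : ∀ ψ p, eval (pt ψ) p = ψ (Ideal.Quotient.mk J p) := fun ψ p => by
    have : aeval (pt ψ) = ψ.comp (Ideal.Quotient.mkₐ k J) := algHom_ext fun i => by simp [pt]
    exact DFunLike.congr_fun this p
  have hi : Function.Injective pt := fun ψ ψ' e => AlgHom.ext fun a => by
    obtain ⟨p, rfl⟩ := Ideal.Quotient.mk_surjective a
    rw [← hpt, ← hpt, e]
  have hr : {x : σ → k | ∀ j, eval x (P j) = 0} = Set.range pt := by
    refine Set.ext fun x => ⟨fun hx => ?_, ?_⟩
    · refine ⟨Ideal.Quotient.liftₐ J (aeval x) fun a ha => ?_, funext fun i => by simp [pt]⟩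
      refine (show J ≤ RingHom.ker (aeval x : MvPolynomial σ k →ₐ[k] k) from
        Ideal.span_le.2 ?_) ha
      rintro _ ⟨j, rfl⟩
      exact hx j
    · rintro ⟨ψ, rfl⟩ j
      rw [hpt, hP, map_zero]
  rw [hr]
  refine ⟨Set.finite_range _, ?_⟩
  rw [Set.ncard_range_of_injective hi]
  refine card_eq_finrank fun ψ d hd => LinearMap.ext fun a => ?_
  obtain ⟨p, rfl⟩ := Ideal.Quotient.mk_surjective a
  have h1 := der_eq (pt ψ) (d ∘ₗ (Ideal.Quotient.mkₐ k J).toLinearMap) fun a b => by
    simp [hpt, hd]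
  have h2 := h (pt ψ) (fun j => by rw [hpt, hP, map_zero])
    (fun i => d (Ideal.Quotient.mk J (X i))) fun j => by simpa [hP] using (h1 (P j)).symm
  simpa [show ∀ i, d (Ideal.Quotient.mk J (X i)) = 0 from congrFun h2] using h1 p

end field

section base

variable {Λ T σ ι : Type*} [CommRing Λ] [CommRing T]

/-- base change of a presentation -/
theorem nonempty_bc [Algebra Λ T] (P : ι → MvPolynomial σ Λ) :
    Nonempty ((T ⊗[Λ] (MvPolynomial σ Λ ⧸ Ideal.span (Set.range P))) ≃ₐ[T]
      MvPolynomial σ T ⧸ Ideal.span (Set.range fun j => map (algebraMap Λ T) (P j))) := by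
  refine ⟨(Algebra.TensorProduct.tensorQuotientEquiv (R := Λ) T _ T _).trans
    (Ideal.quotientEquivAlg _ _ (algebraTensorAlgEquiv Λ T) ?_)⟩
  rw [Ideal.map_span, Ideal.map_span, ← Set.range_comp, ← Set.range_comp]
  congr 2
  funext j
  simp

theorem finite_bc (χ : Λ →+* T) (P : ι → MvPolynomial σ Λ)
    [Module.Finite Λ (MvPolynomial σ Λ ⧸ Ideal.span (Set.range P))] :
    Module.Finite T (MvPolynomial σ T ⧸ Ideal.span (Set.range fun j => map χ (P j))) := by
  let _ := χ.toAlgebra
  obtain ⟨e⟩ := nonempty_bc (T := T) P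
  exact Module.Finite.equiv e.toLinearEquiv

/-- the rank does not change in an extension of domains -/
theorem finrank_bc [IsDomain T] (χ : Λ →+* T) (hχ : Function.Injective χ)
    (P : ι → MvPolynomial σ Λ) :
    finrank T (MvPolynomial σ T ⧸ Ideal.span (Set.range fun j => map χ (P j))) =
      finrank Λ (MvPolynomial σ Λ ⧸ Ideal.span (Set.range P)) := by
  let _ := χ.toAlgebra
  have : FaithfulSMul Λ T := (faithfulSMul_iff_algebraMap_injective Λ T).2 hχ
  obtain ⟨e⟩ := nonempty_bc (T := T) P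
  exact e.toLinearEquiv.finrank_eq.symm.trans (TensorProduct.isBaseChange Λ _ T).finrank_eq

/-- generic freeness -/
theorem exists_free (M : Type*) [AddCommGroup M] [Module Λ M] [IsDomain Λ] [IsNoetherianRing Λ]
    [Module.Finite Λ M] : ∃ δ : Λ, δ ≠ 0 ∧ ∀ (k : Type*) [Field k] [Algebra Λ k],
      algebraMap Λ k δ ≠ 0 → finrank k (k ⊗[Λ] M) = finrank Λ M := by
  have := Module.finitePresentation_of_finite Λ M
  obtain ⟨r, hr, h1, -⟩ := Module.FinitePresentation.exists_free_localizedModule_powers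
    (nonZeroDivisors Λ) (TensorProduct.mk Λ (FractionRing Λ) M 1) (FractionRing Λ)
  refine ⟨r, nonZeroDivisors.ne_zero hr, fun k _ _ hk => ?_⟩
  let V := Localization.Away r
  let _ : Algebra V k := (IsLocalization.Away.lift r (Ne.isUnit hk)).toAlgebra
  have : IsScalarTower Λ V k := IsScalarTower.of_algebraMap_eq fun a =>
    (IsLocalization.Away.lift_eq r _ a).symm
  have : Module.Free V (V ⊗[Λ] M) := .of_equiv (LocalizedModule.equivTensorProduct (.powers r) M)
  have hi := IsLocalization.injective V (Submonoid.powers_le.2 hr)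
  have : FaithfulSMul Λ V := (faithfulSMul_iff_algebraMap_injective Λ V).2 hi
  have : IsDomain V := IsLocalization.isDomain_of_le_nonZeroDivisors V (Submonoid.powers_le.2 hr)
  rw [← (AlgebraTensorModule.cancelBaseChange Λ V k k M).finrank_eq, finrank_baseChange]
  exact (TensorProduct.isBaseChange Λ M V).finrank_eq

/-- **The number of points of a general fibre is the rank.** -/
theorem exists_count {k : Type*} [Field k] [IsAlgClosed k] [IsDomain Λ] [IsNoetherianRing Λ]
    [Fintype σ] (P : ι → MvPolynomial σ Λ)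
    [Module.Finite Λ (MvPolynomial σ Λ ⧸ Ideal.span (Set.range P))] :
    ∃ δ : Λ, δ ≠ 0 ∧ ∀ χ : Λ →+* k, χ δ ≠ 0 →
      (∀ x : σ → k, (∀ j, eval₂ χ x (P j) = 0) →
        ∀ v : σ → k, (∀ j, ∑ i, eval₂ χ x (pderiv i (P j)) * v i = 0) → v = 0) →
      {x : σ → k | ∀ j, eval₂ χ x (P j) = 0}.Finite ∧
        {x : σ → k | ∀ j, eval₂ χ x (P j) = 0}.ncard =
          finrank Λ (MvPolynomial σ Λ ⧸ Ideal.span (Set.range P)) := by
  obtain ⟨δ, h0, h1⟩ := exists_free (Λ := Λ) (MvPolynomial σ Λ ⧸ Ideal.span (Set.range P))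
  refine ⟨δ, h0, fun χ hχ h => ?_⟩
  have := finite_bc χ P
  let _ := χ.toAlgebra
  obtain ⟨e⟩ := nonempty_bc (T := k) P
  have h2 := ncard_eq_finrank (fun j => map χ (P j)) (by
    simpa only [pderiv_map, eval_map] using h)
  simp only [eval_map] at h2
  exact ⟨h2.1, h2.2.trans (e.toLinearEquiv.finrank_eq.symm.trans (h1 k hχ))⟩

end base

end Vale.Agent.P269L.La
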