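import Mathlib

/-!
# P269L: the length of the special fibre at its generic point is the rank
-/

open Module TensorProduct IsLocalRing

namespace Vale.Agent.P269L.La

section fibre

variable {A M : Type*} [CommRing A] [IsDomain A] [AddCommGroup M] [Module A M]

/-- at a prime where the module is free the fibre dimension is the rank -/
theorem finrank_fiber (p : Ideal A) [hp : p.IsPrime] (h : (⟨p, hp⟩ : PrimeSpectrum A) ∈ freeLocus A M) :
    finrank p.ResidueField (p.Fiber M) = finrank A M := by
  let V := Localization.AtPrime p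
  have h1 : Module.Free V (V ⊗[A] M) := (mem_freeLocus_iff_tensor ⟨p, hp⟩ V).1 h
  let e : p.ResidueField ⊗[V] (V ⊗[A] M) ≃ₗ[p.ResidueField] p.ResidueField ⊗[A] M :=
    AlgebraTensorModule.cancelBaseChange _ _ _ _ _
  have h2 : FaithfulSMul A V := (faithfulSMul_iff_algebraMap_injective A V).2
    (IsLocalization.injective V p.primeCompl_le_nonZeroDivisors)
  rw [← e.finrank_eq, finrank_baseChange]
  exact (TensorProduct.isBaseChange A M V).finrank_eq

/-- a finite module on which a prime element is regular is free at that prime -/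
theorem mem_freeLocus [IsNoetherianRing A] [Module.Finite A M] {t : A} (p : Ideal A)
    [hp : p.IsPrime] (e : p = Ideal.span {t}) (h : ∀ m : M, t • m = 0 → m = 0) :
    (⟨p, hp⟩ : PrimeSpectrum A) ∈ freeLocus A M := by
  let V := Localization.AtPrime p
  let N := LocalizedModule p.primeCompl M
  have hm : maximalIdeal V = Ideal.span {algebraMap A V t} := by
    rw [← Localization.AtPrime.map_eq_maximalIdeal, ← Set.image_singleton, ← Ideal.map_span, ← e]
  have h0 : (maximalIdeal V).IsPrincipal := ⟨_, hm⟩
  have T := tfae_of_isNoetherianRing_of_isLocalRing_of_isDomain V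
  have h1 : IsPrincipalIdealRing V := (T.out 4 0).1 h0
  have h2 : ∀ I : Ideal V, I ≠ ⊥ → ∃ n : ℕ, I = maximalIdeal V ^ n := (T.out 4 6).1 h0
  have h3 : ∀ m : N, algebraMap A V t • m = 0 → m = 0 := by
    intro m hm
    obtain ⟨⟨d, s⟩, rfl⟩ := IsLocalizedModule.mk'_surjective p.primeCompl
      (LocalizedModule.mkLinearMap p.primeCompl M) m
    simp only [Function.uncurry, algebraMap_smul] at hm ⊢
    rw [← IsLocalizedModule.mk'_smul, IsLocalizedModule.mk'_eq_zero'] at hm
    obtain ⟨u, hu⟩ := hm
    rw [smul_comm] at hu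
    exact (IsLocalizedModule.mk'_eq_zero' _ _).2 ⟨u, h _ hu⟩
  have h4 : ∀ (n : ℕ) (m : N), algebraMap A V t ^ n • m = 0 → m = 0 := by
    intro n
    induction n with
    | zero => intro m hm; simpa using hm
    | succ n ih => intro m hm; exact h3 _ (ih _ (by rwa [← mul_smul, ← pow_succ]))
  have h5 : Module.IsTorsionFree V N := by
    refine ⟨fun v hv => ?_⟩
    obtain ⟨n, hn⟩ := h2 (Ideal.span {v}) (by simpa using hv.ne_zero)
    rw [hm, Ideal.span_singleton_pow] at hn
    obtain ⟨c, hc⟩ := Ideal.mem_span_singleton'.1 (hn ▸ Ideal.mem_span_singleton_self _ :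
      algebraMap A V t ^ n ∈ Ideal.span {v})
    intro a b hab
    refine sub_eq_zero.1 (h4 n _ ?_)
    rw [← hc, mul_smul, smul_sub, show v • a = v • b from hab, sub_self, smul_zero]
  exact (Module.free_of_finite_type_torsion_free' : Module.Free V N)

end fibre

/-- the length of a localised quotient -/
theorem length_loc {D Q : Type*} [CommRing D] [CommRing Q] (π : D →+* Q) (hπ : Function.Surjective π)
    (q : Ideal Q) [q.IsPrime] :
    Module.length (Localization.AtPrime (q.comap π)) (Localization.AtPrime (q.comap π) ⧸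
      (RingHom.ker π).map (algebraMap D (Localization.AtPrime (q.comap π)))) =
    Module.length (Localization.AtPrime q) (Localization.AtPrime q) := by
  let S := Localization.AtPrime (q.comap π)
  let L := Localization.AtPrime q
  have hT : (q.comap π).primeCompl.map π = q.primeCompl := by
    ext x
    obtain ⟨x, rfl⟩ := hπ x
    exact ⟨fun ⟨y, hy, e⟩ => e ▸ hy, fun h => ⟨x, h, rfl⟩⟩
  let φ : S →+* L := IsLocalization.map L π (hT.symm ▸ (q.comap π).primeCompl.le_comap_map)
  have hk : RingHom.ker φ = (RingHom.ker π).map (algebraMap D S) := IsLocalization.ker_map L π hT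
  have hs : Function.Surjective φ := by
    intro x
    obtain ⟨a, b, rfl⟩ := IsLocalization.exists_mk'_eq q.primeCompl x
    obtain ⟨a, rfl⟩ := hπ a
    obtain ⟨c, hc⟩ := hπ b
    refine ⟨IsLocalization.mk' S a (⟨c, show π c ∉ q from hc ▸ b.2⟩ : (q.comap π).primeCompl), ?_⟩
    rw [IsLocalization.map_mk']
    exact congrArg _ (Subtype.ext hc)
  let _ : Algebra S L := φ.toAlgebra
  rw [← hk, ← Module.length_eq_of_surjective (S := S) (R := L) (M := L) hs]
  exact (Ideal.quotientKerAlgEquivOfSurjective (f := Algebra.ofId S L) hs).toLinearEquiv.length_eq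

/-- **Length = rank.** -/
theorem length_eq_finrank {A D Q : Type*} [CommRing A] [IsDomain A] [IsNoetherianRing A]
    [CommRing D] [Algebra A D] [Module.Finite A D] [CommRing Q] {t : A} (ht : Prime t)
    (hD : ∀ d : D, algebraMap A D t * d = 0 → d = 0) (π : D →+* Q) (hπ : Function.Surjective π)
    (hk : RingHom.ker π = Ideal.span {algebraMap A D t}) (q : Ideal Q) [q.IsPrime]
    (hn : q ≤ nilradical Q) (hs : ∀ d : D, ∃ a : A, π d - π (algebraMap A D a) ∈ q)
    (hi : ∀ a : A, π (algebraMap A D a) ∈ q → t ∣ a) :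
    Module.length (Localization.AtPrime q) (Localization.AtPrime q) = finrank A D := by
  let p : Ideal A := Ideal.span {t}
  have hp : p.IsPrime := (Ideal.span_singleton_prime ht.ne_zero).2 ht
  let r : Ideal D := q.comap π
  have ht0 : π (algebraMap A D t) = 0 := (RingHom.mem_ker).1 (hk ▸ Ideal.mem_span_singleton_self _)
  have hr : r.LiesOver p := ⟨Ideal.ext fun a => ⟨fun h => by
    obtain ⟨c, rfl⟩ := Ideal.mem_span_singleton'.1 h
    show π (algebraMap A D (c * t)) ∈ q
    rw [map_mul, map_mul, ht0, mul_zero]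
    exact q.zero_mem, fun h => Ideal.mem_span_singleton.2 (hi a h)⟩⟩
  have hpk : p.map (algebraMap A D) = RingHom.ker π := by
    rw [hk, Ideal.map_span, Set.image_singleton]
  have hu : ∀ r' : p.primesOver D, r' = ⟨r, inferInstance, hr⟩ := by
    rintro ⟨r', h1, h2⟩
    have h3 : RingHom.ker π ≤ r' := hpk ▸ Ideal.map_le_iff_le_comap.2 h2.over.le
    have h4 : r ≤ r' := fun d hd => by
      obtain ⟨n, e⟩ := hn hd
      exact h1.mem_of_pow_mem n (h3 (by rwa [RingHom.mem_ker, map_pow]))
    refine Subtype.ext (le_antisymm (fun d hd => ?_) h4)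
    obtain ⟨a, ha⟩ := hs d
    have h5 : d - algebraMap A D a ∈ r := by rwa [Ideal.mem_comap, map_sub]
    have h6 : a ∈ p := by
      rw [h2.over]
      simpa using r'.sub_mem hd (h4 h5)
    have h7 : algebraMap A D a ∈ r := by rwa [hr.over] at h6
    simpa using r.add_mem h5 h7
  let _ : Unique (p.primesOver D) := ⟨⟨⟨r, inferInstance, hr⟩⟩, hu⟩
  have h1 := Ideal.sum_ramification_inertia_eq_finrank_fiber p D
  rw [Fintype.sum_unique, finrank_fiber p (mem_freeLocus p rfl fun d hd => hD d
    (by rwa [← Algebra.smul_def]))] at h1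
  have h2 : r.inertiaDeg A = 1 := by
    let _ := Localization.AtPrime.algebraOfLiesOver p r
    rw [Ideal.inertiaDeg_eq p r]
    have k : ∀ d : D ⧸ r, ∃ a : p.ResidueField, algebraMap _ r.ResidueField a = algebraMap _ _ d := by
      intro d
      obtain ⟨d, rfl⟩ := Ideal.Quotient.mk_surjective d
      obtain ⟨a, ha⟩ := hs d
      have h5 : Ideal.Quotient.mk r d = Ideal.Quotient.mk r (algebraMap A D a) :=
        Ideal.Quotient.eq.2 (by rwa [Ideal.mem_comap, map_sub])
      refine ⟨algebraMap A _ a, ?_⟩
      rw [h5, ← IsScalarTower.algebraMap_apply, IsScalarTower.algebraMap_apply A D]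
      rfl
    refine finrank_of_bijective_algebraMap ⟨RingHom.injective _, fun z => ?_⟩
    obtain ⟨x, y, -, rfl⟩ := IsFractionRing.div_surjective (A := D ⧸ r) z
    obtain ⟨a, ha⟩ := k x
    obtain ⟨b, hb⟩ := k y
    exact ⟨a / b, by rw [map_div₀, ha, hb]⟩
  have h3 := r.ramificationIdx_pos A
  change r.ramificationIdx A * r.inertiaDeg A = _ at h1
  rw [h2, mul_one] at h1
  rw [← h1]
  rw [Ideal.ramificationIdx_eq p r, IsScalarTower.algebraMap_eq A D, ← Ideal.map_map, hpk,
    length_loc π hπ q] at h3 ⊢
  exact (ENat.natCast_toNat fun h => by simp [h] at h3).symm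

end Vale.Agent.P269L.La
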